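import Vale.Agent.P141.H576.GlueW

/-!
# P141, line (A): the gains for planes with two values per cell of `x₀`

`gapSum2` : `H588G.gapSum` when the plane `c x k` is `c₀ k (ix k x)` or `c₀ k (ix k x) + 1`, constant
doubled; `GapFam.gap2` : the same for `H576.GapFam`.
-/

namespace Vale.Agent.P141.H32

open Finset Matrix Vale.Agent.P141.PL Vale.Agent.P141.PL.H103 Vale.Agent.P141.H103
open Vale.Agent.P141.H588G
open Vale.Agent.P141.H576 (GapFam)

noncomputable section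

open scoped Classical

/-- one side of the changes, planes with two values per cell -/
theorem sum_xA2 {N : ℕ} {R S T t₀ : ℤ} {c : ℤ → ℕ → ℤ} {c₀ : ℕ → ℤ → ℤ}
    (hcl : ∀ k x, c x k = c₀ k (ix k x) ∨ c x k = c₀ k (ix k x) + 1)
    {q : ℕ → ℤ → ℤ → ℤ → Prop}
    {s t : ℤ → ℕ → ℤ → ℤ → ℝ} {gA gB cP : ℝ} (hA : 0 ≤ gA) (hB : 0 ≤ gB)
    (hs : ∀ x k n m, 0 ≤ s x k n m) (ht : ∀ x k n m, 0 ≤ t x k n m)
    (capA : ∀ k < N, ∀ i ∈ iv (N - k) t₀, ∀ n ∈ iv (N - k) R, ∀ m ∈ iv (N - k) S,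
      ∑ x ∈ iv k i, s x k n m ≤ gA * 2 ^ k)
    (capB : ∀ k < N, ∀ i ∈ iv (N - k) t₀, ∀ n ∈ iv (N - k) T, ∀ m ∈ iv (N - k) S,
      ∑ x ∈ iv k i, t x k n m ≤ gB * 2 ^ k)
    (pack : ∀ x ∈ iv N t₀, ∑ k ∈ range N, cnt N R S k (q k (ix k x)) ≤ cP * 4 ^ N) :
    ∑ x ∈ iv N t₀, ∑ k ∈ range N, xA N R S T k (c x k) (q k (ix k x)) (s x k) (t x k) ≤
      2 * ((1 / 2 * (gA + gB) + 72 * gA) * (cP * 8 ^ N)) := by
  set C := 1 / 2 * (gA + gB) + 72 * gA with hC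
  have C0 : 0 ≤ C := by positivity
  have h1 : ∀ k ∈ range N, ∑ x ∈ iv N t₀,
      xA N R S T k (c x k) (q k (ix k x)) (s x k) (t x k) ≤
      ∑ x ∈ iv N t₀, (2 * C) * cnt N R S k (q k (ix k x)) := by
    intro k hk
    have hk := mem_range.1 hk
    have e : iv N t₀ = iv (N - k + k) t₀ := by rw [Nat.sub_add_cancel hk.le]
    rw [e, ← sum_iv_iv, ← sum_iv_iv]
    refine sum_le_sum fun i hi => ?_
    have e2 : ∑ x ∈ iv k i, (2 * C) * cnt N R S k (q k (ix k x)) =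
        (C * 2 ^ k) * cnt N R S k (q k i) + (C * 2 ^ k) * cnt N R S k (q k i) := by
      rw [sum_congr rfl fun x hx => by rw [mem_iv.1 hx], sum_const, nsmul_eq_mul, card_iv']
      ring
    rw [e2, ← sum_filter_add_sum_filter_not (iv k i) (fun x => c x k = c₀ k i)]
    have one : ∀ (X : Finset ℤ) (u : ℤ), X ⊆ iv k i → (∀ x ∈ X, c x k = u) →
        ∑ x ∈ X, xA N R S T k (c x k) (q k (ix k x)) (s x k) (t x k) ≤
          (C * 2 ^ k) * cnt N R S k (q k i) := by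
      intro X u hX hu
      have e1 : ∑ x ∈ X, xA N R S T k (c x k) (q k (ix k x)) (s x k) (t x k) =
          ∑ x ∈ X, xA N R S T k u (q k i) (s x k) (t x k) := by
        refine sum_congr rfl fun x hx => ?_
        rw [hu x hx, mem_iv.1 (hX hx)]
      rw [e1]
      refine (xA_cap hk.le (a := gA * 2 ^ k) (b := gB * 2 ^ k) (by positivity) (by positivity)
        (fun n hn m hm => ?_) (fun n hn m hm => ?_)).trans (le_of_eq ?_)
      · exact (sum_le_sum_of_subset_of_nonneg hX fun x _ _ => hs x k n m).trans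
          (capA k hk i hi n hn m hm)
      · exact (sum_le_sum_of_subset_of_nonneg hX fun x _ _ => ht x k n m).trans
          (capB k hk i hi n hn m hm)
      · unfold cnt
        rw [hC]
        ring
    refine add_le_add (one _ (c₀ k i) (filter_subset _ _) fun x hx => (mem_filter.1 hx).2)
      (one _ (c₀ k i + 1) (filter_subset _ _) fun x hx => ?_)
    have h := mem_filter.1 hx
    have h2 := hcl k x
    rw [mem_iv.1 h.1] at h2
    exact h2.resolve_left h.2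
  rw [sum_comm]
  refine (sum_le_sum h1).trans ?_
  rw [sum_comm]
  have h2 : ∑ x ∈ iv N t₀, ∑ k ∈ range N, (2 * C) * cnt N R S k (q k (ix k x)) ≤
      ∑ x ∈ iv N t₀, (2 * C) * (cP * 4 ^ N) := by
    refine sum_le_sum fun x hx => ?_
    rw [← Finset.mul_sum]
    exact mul_le_mul_of_nonneg_left (pack x hx) (by positivity)
  refine h2.trans (le_of_eq ?_)
  rw [sum_const, nsmul_eq_mul, card_iv', show (8 : ℝ) = 2 * 4 by norm_num, mul_pow]
  ring

/-- **The gains of all scales, summed over `x₀`**, two planes per cell. -/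
theorem gapSum2' {N : ℕ} {R S T t₀ : ℤ} {c : ℤ → ℕ → ℤ} (hc : ∀ x, H588.Pl (c x))
    {c₀ : ℕ → ℤ → ℤ} (hcl : ∀ k x, c x k = c₀ k (ix k x) ∨ c x k = c₀ k (ix k x) + 1)
    {ι : ℕ → Type*} [∀ k, Fintype (ι k)]
    {P P' Q Q' : ℤ → ∀ k, ℕ → ℤ → ℤ → Matrix (ι k) (ι k) ℝ} {g : ℤ → ℕ → ℤ → ℤ → ℤ → ℝ}
    {qA qB : ℕ → ℤ → ℤ → ℤ → Prop}
    (oP : ∀ x k, k ≤ N → OutM N k (P x k)) (oQ : ∀ x k, k ≤ N → OutM N k (Q x k))
    (oP' : ∀ x k, k < N → OutM N k (P' x k)) (oQ' : ∀ x k, k < N → OutM N k (Q' x k))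
    (pP : ∀ x k a n m, (P x k a n m).PosSemidef) (pQ : ∀ x k a n m, (Q x k a n m).PosSemidef)
    (pP' : ∀ x k a n m, (P' x k a n m).PosSemidef) (pQ' : ∀ x k a n m, (Q' x k a n m).PosSemidef)
    (agP : ∀ x k, k < N → ∀ n ∈ iv (N - k) R, ∀ m ∈ iv (N - k) S, ¬ qA k (ix k x) n m →
      P' x k k n m = P x k k n m)
    (agQ : ∀ x k, k < N → ∀ n ∈ iv (N - k) T, ∀ m ∈ iv (N - k) S, ¬ qB k (ix k x) n m →
      Q' x k k n m = Q x k k n m)
    (mid : ∀ x k, k < N → ∀ n n' m,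
      (P x (k + 1) (k + 1) n m * Q x (k + 1) (k + 1) n' m).trace + g x k n n' m
      ≤ (1 / 2) * ((P' x k (k + 1) n (2 * m) * Q' x k (k + 1) n' (2 * m)).trace
        + (P' x k (k + 1) n (2 * m + 1) * Q' x k (k + 1) n' (2 * m + 1)).trace))
    (hE : ∀ x k, k < N → ∀ a, k + 1 ≤ a → a ≤ N →
      EW N R S (k + 1) (P x (k + 1)) a ≤ EW N R S k (P' x k) a)
    (hF : ∀ x k, k < N → ∀ a, k + 1 ≤ a → a ≤ N →
      EW N T S (k + 1) (Q x (k + 1)) a ≤ EW N T S k (Q' x k) a)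
    (zP : ∀ x n m, P x 0 0 n m = 0) (zQ : ∀ x n m, Q x 0 0 n m = 0)
    {gA gB cP : ℝ} (hA : 0 ≤ gA) (hB : 0 ≤ gB)
    (capA : ∀ k < N, ∀ i ∈ iv (N - k) t₀, ∀ n ∈ iv (N - k) R, ∀ m ∈ iv (N - k) S,
      ∑ x ∈ iv k i, S2 (P' x k k n m) ≤ gA * 2 ^ k)
    (capB : ∀ k < N, ∀ i ∈ iv (N - k) t₀, ∀ n ∈ iv (N - k) T, ∀ m ∈ iv (N - k) S,
      ∑ x ∈ iv k i, S2 (Q' x k k n m) ≤ gB * 2 ^ k)
    (packA : ∀ x ∈ iv N t₀, ∑ k ∈ range N, cnt N R S k (qA k (ix k x)) ≤ cP * 4 ^ N)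
    (packB : ∀ x ∈ iv N t₀, ∑ k ∈ range N, cnt N T S k (qB k (ix k x)) ≤ cP * 4 ^ N) :
    ∑ x ∈ iv N t₀, ∑ k ∈ range N, GW N R S T (k + 1) (c x (k + 1)) (g x k) ≤
      146 * (gA + gB) * (cP * 8 ^ N) := by
  have h1 : ∀ x, ∑ k ∈ range N, GW N R S T (k + 1) (c x (k + 1)) (g x k) ≤
      ∑ k ∈ range N, (xA N R S T k (c x k) (qA k (ix k x)) (fun n m => S2 (P' x k k n m))
        (fun n m => S2 (Q' x k k n m)) + xA N T S R k (c x k) (qB k (ix k x))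
        (fun n m => S2 (Q' x k k n m)) (fun n m => S2 (P' x k k n m))) := by
    intro x
    have h := totalW (Nat.zero_le N) (hc x) (P := P x) (P' := P' x) (Q := Q x) (Q' := Q' x)
      (R := R) (S := S) (T := T) (g := g x) (dE := fun _ _ => 0) (dF := fun _ _ => 0)
      (x := fun k => (xA N R S T k (c x k) (qA k (ix k x)) (fun n m => S2 (P' x k k n m))
        (fun n m => S2 (Q' x k k n m)) + xA N T S R k (c x k) (qB k (ix k x))
        (fun n m => S2 (Q' x k k n m)) (fun n m => S2 (P' x k k n m))))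
      (fun k _ h => oP x k h) (fun k _ h => oQ x k h) (fun k _ h => oP' x k h)
      (fun k _ h => oQ' x k h) (fun k a n m => psd_tr (pP x k a n m))
      (fun k a n m => psd_tr (pQ x k a n m)) (fun k a n m => psd_tr (pP' x k a n m))
      (fun k a n m => psd_tr (pQ' x k a n m)) (fun k _ h => mid x k h)
      (fun k _ h a h1 h2 => by rw [add_zero]; exact hE x k h a h1 h2)
      (fun k _ h a h1 h2 => by rw [add_zero]; exact hF x k h a h1 h2)
      (fun k _ h => total_ch h.le (oP x k h.le) (oP' x k h) (oQ x k h.le) (oQ' x k h)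
        (pP x k) (pP' x k) (pQ x k) (pQ' x k) (agP x k h) (agQ x k h))
    have z1 : EW N R S 0 (P x 0) 0 = 0 := by
      unfold EW
      simp [zP]
    have z2 : EW N T S 0 (Q x 0) 0 = 0 := by
      unfold EW
      simp [zQ]
    rw [z1, z2] at h
    simp only [WW, mul_zero, sum_const_zero, add_zero, zero_add] at h
    rwa [← range_eq_Ico] at h
  refine (sum_le_sum fun x _ => h1 x).trans ?_
  simp only [sum_add_distrib]
  have q1 := sum_xA2 (T := T) hcl (s := fun x k n m => S2 (P' x k k n m))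
    (t := fun x k n m => S2 (Q' x k k n m)) hA hB (fun x k n m => S2_nonneg (psd_tr (pP' x k k n m)))
    (fun x k n m => S2_nonneg (psd_tr (pQ' x k k n m))) capA capB packA
  have q2 := sum_xA2 (T := R) hcl (s := fun x k n m => S2 (Q' x k k n m))
    (t := fun x k n m => S2 (P' x k k n m)) hB hA (fun x k n m => S2_nonneg (psd_tr (pQ' x k k n m)))
    (fun x k n m => S2_nonneg (psd_tr (pP' x k k n m))) capB capA packB
  refine (add_le_add q1 q2).trans (le_of_eq ?_)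
  ring

/-- **The gains of all scales, summed over `x₀`**, product form, two planes per cell. -/
theorem gapSum2 {N : ℕ} {R S T t₀ : ℤ} {c : ℤ → ℕ → ℤ} (hc : ∀ x, H588.Pl (c x))
    {c₀ : ℕ → ℤ → ℤ} (hcl : ∀ k x, c x k = c₀ k (ix k x) ∨ c x k = c₀ k (ix k x) + 1)
    {ι : ℕ → Type*} [∀ k, Fintype (ι k)]
    {P P' Q Q' : ℤ → ∀ k, ℕ → ℤ → ℤ → Matrix (ι k) (ι k) ℝ} {g : ℤ → ℕ → ℤ → ℤ → ℤ → ℝ}
    {qA qB : ℕ → ℤ → ℤ → ℤ → Prop}
    (oP : ∀ x k, k ≤ N → OutM N k (P x k)) (oQ : ∀ x k, k ≤ N → OutM N k (Q x k))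
    (oP' : ∀ x k, k < N → OutM N k (P' x k)) (oQ' : ∀ x k, k < N → OutM N k (Q' x k))
    (pP : ∀ x k a n m, (P x k a n m).PosSemidef) (pQ : ∀ x k a n m, (Q x k a n m).PosSemidef)
    (pP' : ∀ x k a n m, (P' x k a n m).PosSemidef) (pQ' : ∀ x k a n m, (Q' x k a n m).PosSemidef)
    (agP : ∀ x k, k < N → ∀ n ∈ iv (N - k) R, ∀ m ∈ iv (N - k) S, ¬ qA k (ix k x) n m →
      P' x k k n m = P x k k n m)
    (agQ : ∀ x k, k < N → ∀ n ∈ iv (N - k) T, ∀ m ∈ iv (N - k) S, ¬ qB k (ix k x) n m →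
      Q' x k k n m = Q x k k n m)
    (mid : ∀ x k, k < N → ∀ n n' m,
      (P x (k + 1) (k + 1) n m * Q x (k + 1) (k + 1) n' m).trace + g x k n n' m
      ≤ (1 / 2) * ((P' x k (k + 1) n (2 * m) * Q' x k (k + 1) n' (2 * m)).trace
        + (P' x k (k + 1) n (2 * m + 1) * Q' x k (k + 1) n' (2 * m + 1)).trace))
    (hE : ∀ x k, k < N → ∀ a, k + 1 ≤ a → a ≤ N →
      EW N R S (k + 1) (P x (k + 1)) a ≤ EW N R S k (P' x k) a)
    (hF : ∀ x k, k < N → ∀ a, k + 1 ≤ a → a ≤ N →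
      EW N T S (k + 1) (Q x (k + 1)) a ≤ EW N T S k (Q' x k) a)
    (zP : ∀ x n m, P x 0 0 n m = 0) (zQ : ∀ x n m, Q x 0 0 n m = 0)
    {gA gB cP : ℝ} (hA : 0 < gA) (hB : 0 < gB)
    (capA : ∀ k < N, ∀ i ∈ iv (N - k) t₀, ∀ n ∈ iv (N - k) R, ∀ m ∈ iv (N - k) S,
      ∑ x ∈ iv k i, S2 (P' x k k n m) ≤ gA * 2 ^ k)
    (capB : ∀ k < N, ∀ i ∈ iv (N - k) t₀, ∀ n ∈ iv (N - k) T, ∀ m ∈ iv (N - k) S,
      ∑ x ∈ iv k i, S2 (Q' x k k n m) ≤ gB * 2 ^ k)
    (packA : ∀ x ∈ iv N t₀, ∑ k ∈ range N, cnt N R S k (qA k (ix k x)) ≤ cP * 4 ^ N)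
    (packB : ∀ x ∈ iv N t₀, ∑ k ∈ range N, cnt N T S k (qB k (ix k x)) ≤ cP * 4 ^ N) :
    ∑ x ∈ iv N t₀, ∑ k ∈ range N, GW N R S T (k + 1) (c x (k + 1)) (g x k) ≤
      292 * √(gA * gB) * (cP * 8 ^ N) := by
  set μ : ℝ := √(√(gB / gA)) with hμ
  have hd : 0 < gB / gA := div_pos hB hA
  have m0 : 0 < μ := Real.sqrt_pos.2 (Real.sqrt_pos.2 hd)
  have m2 : μ ^ 2 = √(gB / gA) := Real.sq_sqrt (Real.sqrt_nonneg _)
  have e1 : μ ^ 2 * gA = √(gA * gB) := by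
    rw [m2, Real.sqrt_div hB.le, Real.sqrt_mul hA.le]
    have h1 := Real.sq_sqrt hA.le
    have h2 := (Real.sqrt_pos.2 hA).ne'
    field_simp
    rw [h1]
  have e2 : (μ⁻¹) ^ 2 * gB = √(gA * gB) := by
    rw [inv_pow, m2, Real.sqrt_div hB.le, Real.sqrt_mul hA.le]
    have h1 := Real.sq_sqrt hB.le
    have h2 := (Real.sqrt_pos.2 hB).ne'
    field_simp
    rw [h1]
  have h := gapSum2' hc hcl (P := fun x k a n m => μ • P x k a n m)
    (P' := fun x k a n m => μ • P' x k a n m) (Q := fun x k a n m => μ⁻¹ • Q x k a n m)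
    (Q' := fun x k a n m => μ⁻¹ • Q' x k a n m) (g := g) (qA := qA) (qB := qB)
    (R := R) (S := S) (T := T) (t₀ := t₀)
    (fun x k h => (oP x k h).smul μ) (fun x k h => (oQ x k h).smul μ⁻¹)
    (fun x k h => (oP' x k h).smul μ) (fun x k h => (oQ' x k h).smul μ⁻¹)
    (fun x k a n m => (pP x k a n m).smul m0.le)
    (fun x k a n m => (pQ x k a n m).smul (inv_nonneg.2 m0.le))
    (fun x k a n m => (pP' x k a n m).smul m0.le)
    (fun x k a n m => (pQ' x k a n m).smul (inv_nonneg.2 m0.le))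
    (fun x k h n hn m hm hq => by rw [agP x k h n hn m hm hq])
    (fun x k h n hn m hm hq => by rw [agQ x k h n hn m hm hq])
    (fun x k h n n' m => by
      have := mid x k h n n' m
      simp only [Matrix.smul_mul, Matrix.mul_smul, smul_smul, inv_mul_cancel₀ m0.ne', one_smul]
      exact this)
    (fun x k h a h1 h2 => by
      simp only [EW_smul]
      exact mul_le_mul_of_nonneg_left (hE x k h a h1 h2) (sq_nonneg _))
    (fun x k h a h1 h2 => by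
      simp only [EW_smul]
      exact mul_le_mul_of_nonneg_left (hF x k h a h1 h2) (sq_nonneg _))
    (fun x n m => by rw [zP, smul_zero]) (fun x n m => by rw [zQ, smul_zero])
    (gA := √(gA * gB)) (gB := √(gA * gB)) (cP := cP) (Real.sqrt_nonneg _) (Real.sqrt_nonneg _)
    (fun k hk i hi n hn m hm => by
      simp only [S2_smul, ← Finset.mul_sum]
      refine (mul_le_mul_of_nonneg_left (capA k hk i hi n hn m hm) (sq_nonneg μ)).trans
        (le_of_eq ?_)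
      rw [← e1]
      ring)
    (fun k hk i hi n hn m hm => by
      simp only [S2_smul, ← Finset.mul_sum]
      refine (mul_le_mul_of_nonneg_left (capB k hk i hi n hn m hm) (sq_nonneg μ⁻¹)).trans
        (le_of_eq ?_)
      rw [← e2]
      ring)
    packA packB
  refine h.trans (le_of_eq ?_)
  ring

/-- **E2** for planes with two values per cell of `x₀`. -/
theorem gap2 {κ : Type*} [Fintype κ] [DecidableEq κ] {l : ℝ} {N : ℕ}
    {G K : ℤ → ℕ → ℤ → Matrix κ κ ℝ} {R S T t₀ : ℤ}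
    {A : ℤ → ℕ → ℤ → ℤ → ℝ} {b : ℤ → ℕ → ℤ → ℤ → κ → ℝ} {qA qB : ℕ → ℤ → ℤ → ℤ → Prop}
    {gA gB cP : ℝ} (f : GapFam l N G K R S T t₀ A b qA qB gA gB cP) {c : ℤ → ℕ → ℤ}
    (hc : ∀ x, H588.Pl (c x)) {c₀ : ℕ → ℤ → ℤ}
    (hcl : ∀ k x, c x k = c₀ k (ix k x) ∨ c x k = c₀ k (ix k x) + 1) :
    ∑ x₀ ∈ iv N t₀, ∑ k ∈ range N, GW N R S T (k + 1) (c x₀ (k + 1))
        (gK (A x₀ (k + 1)) (b x₀ (k + 1)) K (k + 1)) ≤
      292 * √(gA * gB) * (cP * 8 ^ N) :=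
  gapSum2 hc hcl (P := fun x₀ k => PA (A x₀ k) k) (P' := fun x₀ k => PA (A x₀ (k + 1)) k)
    (Q := fun x₀ k => QK (b x₀ k) K k) (Q' := fun x₀ k => QK (b x₀ (k + 1)) K k)
    (g := fun x₀ k => gK (A x₀ (k + 1)) (b x₀ (k + 1)) K (k + 1))
    (fun _ k _ => PA_out N k _) (fun _ k _ => QK_out N k _ K) (fun _ k _ => PA_out N k _)
    (fun _ k _ => QK_out N k _ K) (fun _ k a n m => PA_psd _ k a n m)
    (fun _ k a n m => QK_psd f.tr _ k a n m) (fun _ k a n m => PA_psd _ k a n m)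
    (fun _ k a n m => QK_psd f.tr _ k a n m) f.agA f.agB
    (fun _ _ hk n n' m => PQ_mid f.tr hk _ _ n n' m)
    (fun _ _ hk a _ _ => PA_own hk R S _ a) (fun _ _ hk a _ _ => QK_own f.tr hk T S _ a)
    f.zA f.zB f.gA0 f.gB0 f.capA f.capB f.packA f.packB

end

end Vale.Agent.P141.H32
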