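import Vale.Agent.P141.H32.ShFam
import Vale.Agent.P141.H58.PSh
import Vale.Agent.P141.H652.PairI
import Vale.Agent.P141.H677.SkelTF2

/-!
# P141, line (A): the static pair on the shifted grids

* `plane_two` : on a cell of `x₀` the planes of a shifted grid take two values;
* `gap_sG` : the gap energies of the pair `(A, b)`, cut to the root `M` and translated by `s`, on the
  plane `j` of the root `M - e`, all scales, summed over `x₀`;
* `eP_le` : the same for `H58.eP`.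
-/

namespace Vale.Agent.P141.H32

open Finset Matrix Vale.Agent.P141.PL
open Vale.Agent.P141.PL.H804 (bx3)
open Vale.Agent.P141.PL.H560 (cbs)
open Vale.Agent.P141.H103 (gK GW)
open Vale.Agent.P141.H747 (sft shA shB sG)
open Vale.Agent.P141.H576 (GapFam)
open Vale.Agent.P141.H652 (gpT gp_scale)
open Vale.Agent.P141.H677 (rv rt rv_rv)
open Vale.Agent.P141.H795 (ys E8 Pl_grid)

noncomputable section

open scoped Classical

theorem ix_rev (k : ℕ) (w x : ℤ) :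
    ix k (w - x) = ix k w - ix k x ∨ ix k (w - x) = ix k w - ix k x - 1 := by
  have h1 := mem_Ico.1 (mem_iv.2 rfl : x ∈ iv k (ix k x))
  have h2 := mem_Ico.1 (mem_iv.2 rfl : w ∈ iv k (ix k w))
  rcases lt_or_ge (w - x) (2 ^ k * (ix k w - ix k x)) with h | h
  · right
    rw [← mem_iv]
    unfold iv
    rw [mem_Ico]
    constructor <;> nlinarith [h1.2, h2.1]
  · left
    rw [← mem_iv]
    unfold iv
    rw [mem_Ico]
    constructor <;> nlinarith [h1.1, h2.2]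

/-- **Two values of the plane per cell of `x₀`.** -/
theorem plane_two (s : Pt) (j : ℤ) (k : ℕ) (x : ℤ) :
    ix k (ys (-x) s) - j = ix k (3 - s.1 - s.2.1 - s.2.2) - ix k x - 1 - j ∨
    ix k (ys (-x) s) - j = ix k (3 - s.1 - s.2.1 - s.2.2) - ix k x - 1 - j + 1 := by
  have e : ys (-x) s = 3 - s.1 - s.2.1 - s.2.2 - x := by
    unfold H795.ys
    ring
  rw [e]
  rcases ix_rev k (3 - s.1 - s.2.1 - s.2.2) x with h | h
  · right
    rw [h]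
    ring
  · left
    rw [h]

variable {κ : Type*} [Fintype κ] [DecidableEq κ] {K : ℕ} {M : Pt} {t : ℤ}
  {A : ℤ → ℕ → ℤ → ℤ → ℝ} {b : ℤ → ℕ → ℤ → ℤ → κ → ℝ} {qA qB : ℕ → ℤ → ℤ → ℤ → Prop}
  {gA gB cP : ℝ}

/-- **The static pair on a shifted grid, one plane.** -/
theorem gap_sG (f : GapFam 1 K (fun _ _ _ => (0 : Matrix κ κ ℝ)) (fun _ _ _ => 1)
      M.2.2 M.2.1 M.1 t A b qA qB gA gB cP)
    (hA : ∀ x₀ k, k < K → ∀ z y, ix K z = M.2.2 → ix K y = M.2.1 →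
      ¬ qA k (ix k x₀) (ix k z) (ix k y) → A x₀ (k + 1) z y = A x₀ k z y)
    (hB : ∀ x₀ k, k < K → ∀ x y, ix K x = M.1 → ix K y = M.2.1 →
      ¬ qB k (ix k x₀) (ix k x) (ix k y) → b x₀ (k + 1) x y = b x₀ k x y)
    (hA0 : ∀ x₀ z y, ix K z = M.2.2 → ix K y = M.2.1 → A x₀ 0 z y = 0)
    (hB0 : ∀ x₀ x y, ix K x = M.1 → ix K y = M.2.1 → b x₀ 0 x y = 0)
    (s : Pt) {j : ℤ} (hj : j ∈ Icc (0 : ℤ) 2) (e : Pt) :
    ∑ x₀ ∈ iv K t, ∑ k ∈ Icc 1 K, ∑ m ∈ sG K M (-x₀) s j e k,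
        gpT (shA K M s (A x₀) k) (shB K M s (b x₀) k) k m ≤
      18688 * √(gA * gB) * (cP * 8 ^ K) := by
  have F := GapFam_sft f hA hB hA0 hB0 s.2.2 s.2.1 s.1 (M - e).2.2 (M - e).2.1 (M - e).1
  have h := gap2 F (c := fun x₀ k => ix k (ys (-x₀) s) - j) (fun x₀ => Pl_grid (-x₀) s hj)
    (c₀ := fun k i => ix k (3 - s.1 - s.2.1 - s.2.2) - i - 1 - j)
    (fun k x => plane_two s j k x)
  have e1 : √(16 * gA * (16 * gB)) = 16 * √(gA * gB) := by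
    rw [show 16 * gA * (16 * gB) = 16 ^ 2 * (gA * gB) by ring,
      Real.sqrt_mul (by norm_num), Real.sqrt_sq (by norm_num)]
  rw [e1] at h
  have e2 : 292 * (16 * √(gA * gB)) * (4 * cP * 8 ^ K) =
      18688 * √(gA * gB) * (cP * 8 ^ K) := by ring
  rw [e2] at h
  refine le_trans (sum_le_sum fun x₀ _ => ?_) h
  rw [H677.Sk.sum_Icc_one]
  refine sum_le_sum fun k _ => ?_
  exact gp_scale (R := rv (M - e)) (sft K M.2.2 M.2.1 s.2.2 s.2.1 (A x₀ (k + 1)))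
    (sft K M.1 M.2.1 s.1 s.2.1 (b x₀ (k + 1))) (Subset.refl _)

/-- **The static pair on a shifted grid, all planes**, in the letters of `H58`. -/
theorem gap_gpS (f : GapFam 1 K (fun _ _ _ => (0 : Matrix κ κ ℝ)) (fun _ _ _ => 1)
      M.2.2 M.2.1 M.1 t A b qA qB gA gB cP)
    (hA : ∀ x₀ k, k < K → ∀ z y, ix K z = M.2.2 → ix K y = M.2.1 →
      ¬ qA k (ix k x₀) (ix k z) (ix k y) → A x₀ (k + 1) z y = A x₀ k z y)
    (hB : ∀ x₀ k, k < K → ∀ x y, ix K x = M.1 → ix K y = M.2.1 →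
      ¬ qB k (ix k x₀) (ix k x) (ix k y) → b x₀ (k + 1) x y = b x₀ k x y)
    (hA0 : ∀ x₀ z y, ix K z = M.2.2 → ix K y = M.2.1 → A x₀ 0 z y = 0)
    (hB0 : ∀ x₀ x y, ix K x = M.1 → ix K y = M.2.1 → b x₀ 0 x y = 0) (s : Pt) :
    ∑ x₀ ∈ iv K t, ∑ k ∈ range K,
        H58.gpS K M (-x₀) (k + 1) s (A x₀ (k + 1)) (b x₀ (k + 1)) ≤
      448512 * √(gA * gB) * (cP * 8 ^ K) := by
  have e0 : ∀ x₀ : ℤ, ∑ k ∈ range K,
      H58.gpS K M (-x₀) (k + 1) s (A x₀ (k + 1)) (b x₀ (k + 1)) =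
      ∑ j ∈ Icc (0 : ℤ) 2, ∑ e ∈ E8, ∑ k ∈ Icc 1 K, ∑ m ∈ sG K M (-x₀) s j e k,
        gpT (shA K M s (A x₀) k) (shB K M s (b x₀) k) k m := by
    intro x₀
    unfold H58.gpS
    rw [sum_comm]
    refine sum_congr rfl fun j _ => ?_
    rw [sum_comm]
    refine sum_congr rfl fun e _ => ?_
    rw [H677.Sk.sum_Icc_one]
    refine sum_congr rfl fun k _ => ?_
    exact H747.sum_cbs_rv K (M - e) (k + 1) (ix (k + 1) (ys (-x₀) s) - j) fun m =>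
      gpT (shA K M s (A x₀) (k + 1)) (shB K M s (b x₀) (k + 1)) (k + 1) (rv m)
  simp only [e0]
  have e1 : ∑ x₀ ∈ iv K t, ∑ j ∈ Icc (0 : ℤ) 2, ∑ e ∈ E8, ∑ k ∈ Icc 1 K,
      ∑ m ∈ sG K M (-x₀) s j e k, gpT (shA K M s (A x₀) k) (shB K M s (b x₀) k) k m =
      ∑ j ∈ Icc (0 : ℤ) 2, ∑ e ∈ E8, ∑ x₀ ∈ iv K t, ∑ k ∈ Icc 1 K,
      ∑ m ∈ sG K M (-x₀) s j e k, gpT (shA K M s (A x₀) k) (shB K M s (b x₀) k) k m := by
    rw [sum_comm]
    refine sum_congr rfl fun j _ => ?_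
    rw [sum_comm]
  rw [e1]
  refine (sum_le_sum fun j hj => sum_le_sum fun e _ => gap_sG f hA hB hA0 hB0 s hj e).trans
    (le_of_eq ?_)
  rw [sum_const, sum_const, H677.Sk.card_E8]
  have h3 : (Icc (0 : ℤ) 2).card = 3 := by decide
  rw [h3]
  simp only [nsmul_eq_mul]
  push_cast
  ring

end

/-- **The leaf**: `H58.eP`, when the pair is a gap family for every value of the root of `x₀`. -/
theorem eP_le {ι : Type} [Fintype ι] [DecidableEq ι] {K : ℕ} {M : Pt}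
    {A : H677.Sk.FamA} {b : H677.Sk.FamV ι} {qA qB : ℕ → ℤ → ℤ → ℤ → Prop} {gA gB cP : ℝ}
    (f : ∀ t ∈ rt M, GapFam 1 K (fun _ _ _ => (0 : Matrix ι ι ℝ)) (fun _ _ _ => 1)
      M.2.2 M.2.1 M.1 t A b qA qB gA gB cP)
    (hA : ∀ x₀ k, k < K → ∀ z y, ix K z = M.2.2 → ix K y = M.2.1 →
      ¬ qA k (ix k x₀) (ix k z) (ix k y) → A x₀ (k + 1) z y = A x₀ k z y)
    (hB : ∀ x₀ k, k < K → ∀ x y, ix K x = M.1 → ix K y = M.2.1 →
      ¬ qB k (ix k x₀) (ix k x) (ix k y) → b x₀ (k + 1) x y = b x₀ k x y)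
    (hA0 : ∀ x₀ z y, ix K z = M.2.2 → ix K y = M.2.1 → A x₀ 0 z y = 0)
    (hB0 : ∀ x₀ x y, ix K x = M.1 → ix K y = M.2.1 → b x₀ 0 x y = 0) (s : Pt) :
    H58.eP K M A b s ≤ 1345536 * √(gA * gB) * (cP * 8 ^ K) := by
  unfold H58.eP
  refine (sum_le_sum fun t ht => gap_gpS (f t ht) hA hB hA0 hB0 s).trans (le_of_eq ?_)
  rw [sum_const]
  have h3 : (rt M).card = 3 := by
    unfold H677.rt
    rw [Int.card_Icc]
    have e : (-(M.1 + M.2.1 + M.2.2) - 1 + 1 - (-(M.1 + M.2.1 + M.2.2) - 3) : ℤ) = 3 := by ring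
    rw [e]
    rfl
  rw [h3, nsmul_eq_mul]
  push_cast
  ring

end Vale.Agent.P141.H32
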