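import Vale.Agent.P141.H576.GlueW
import Vale.Agent.P141.H338.CapB
import Vale.Agent.P141.H747.GridF

/-!
# P141, line (A): fourth moments on translated squares

* `g4` : the energy of the Gram matrix of a block; `g4_rows`, `g4_mono`, `g4_split` : rows and
  columns are exchanged, sub blocks, two pieces;
* `S2_sft` : the square trace of a translated, root cut function on a square of its own grid is at
  most four times the sum over the four standard squares.
-/

namespace Vale.Agent.P141.H32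

open Finset Matrix Vale.Agent.P141.PL
open Vale.Agent.P141.H103 (PA QK QW un PA_eq)
open Vale.Agent.P141.H588G (S2 cnt)
open Vale.Agent.P141.PL.H315 (avg)
open Vale.Agent.P141.H747 (sft)

noncomputable section

open scoped Classical

/-! ### Fourth moments -/

section four

variable {α β : Type*}

/-- fourth moment of a block -/
def q4 (P : Finset α) (Y : Finset β) (a : α → β → ℝ) : ℝ :=
  ∑ y ∈ Y, ∑ y' ∈ Y, (∑ p ∈ P, a p y * a p y') ^ 2

theorem q4_swap (P : Finset α) (Y : Finset β) (a : α → β → ℝ) :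
    q4 P Y a = q4 Y P fun y p => a p y := by
  unfold q4
  have e1 : ∀ y y', (∑ p ∈ P, a p y * a p y') ^ 2 =
      ∑ p ∈ P, ∑ p' ∈ P, (a p y * a p y') * (a p' y * a p' y') := fun y y' => by
    rw [sq, sum_mul_sum]
  have e2 : ∀ p p', (∑ y ∈ Y, a p y * a p' y) ^ 2 =
      ∑ y ∈ Y, ∑ y' ∈ Y, (a p y * a p' y) * (a p y' * a p' y') := fun p p' => by
    rw [sq, sum_mul_sum]
  simp only [e1, e2]
  calc ∑ y ∈ Y, ∑ y' ∈ Y, ∑ p ∈ P, ∑ p' ∈ P, (a p y * a p y') * (a p' y * a p' y')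
      = ∑ y ∈ Y, ∑ p ∈ P, ∑ y' ∈ Y, ∑ p' ∈ P, (a p y * a p y') * (a p' y * a p' y') :=
        sum_congr rfl fun y _ => sum_comm
    _ = ∑ p ∈ P, ∑ y ∈ Y, ∑ y' ∈ Y, ∑ p' ∈ P, (a p y * a p y') * (a p' y * a p' y') := sum_comm
    _ = ∑ p ∈ P, ∑ y ∈ Y, ∑ p' ∈ P, ∑ y' ∈ Y, (a p y * a p y') * (a p' y * a p' y') :=
        sum_congr rfl fun p _ => sum_congr rfl fun y _ => sum_comm
    _ = ∑ p ∈ P, ∑ p' ∈ P, ∑ y ∈ Y, ∑ y' ∈ Y, (a p y * a p y') * (a p' y * a p' y') :=
        sum_congr rfl fun p _ => sum_comm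
    _ = _ := sum_congr rfl fun p _ => sum_congr rfl fun p' _ => sum_congr rfl fun y _ =>
        sum_congr rfl fun y' _ => by ring

theorem q4_nonneg (P : Finset α) (Y : Finset β) (a : α → β → ℝ) : 0 ≤ q4 P Y a :=
  sum_nonneg fun _ _ => sum_nonneg fun _ _ => sq_nonneg _

theorem q4_mono_col (P : Finset α) {Y Y' : Finset β} (h : Y ⊆ Y') (a : α → β → ℝ) :
    q4 P Y a ≤ q4 P Y' a :=
  (sum_le_sum fun _ _ => sum_le_sum_of_subset_of_nonneg h fun _ _ _ => sq_nonneg _).trans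
    (sum_le_sum_of_subset_of_nonneg h fun _ _ _ => sum_nonneg fun _ _ => sq_nonneg _)

theorem q4_mono {P P' : Finset α} {Y Y' : Finset β} (hP : P ⊆ P') (h : Y ⊆ Y')
    (a : α → β → ℝ) : q4 P Y a ≤ q4 P' Y' a := by
  refine (q4_mono_col P h a).trans ?_
  rw [q4_swap, q4_swap P']
  exact q4_mono_col _ hP _

theorem q4_split_row (P : Finset α) (Y : Finset β) (a : α → β → ℝ) (c : α → Prop)
    [DecidablePred c] : q4 P Y a ≤ 2 * (q4 (P.filter c) Y a + q4 (P.filter fun p => ¬ c p) Y a) := by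
  unfold q4
  rw [← sum_add_distrib, mul_sum]
  refine sum_le_sum fun y _ => ?_
  rw [← sum_add_distrib, mul_sum]
  refine sum_le_sum fun y' _ => ?_
  rw [← sum_filter_add_sum_filter_not P c]
  nlinarith [sq_nonneg ((∑ p ∈ P.filter c, a p y * a p y') -
    ∑ p ∈ P.filter (fun p => ¬ c p), a p y * a p y')]

theorem q4_split_col (P : Finset α) (Y : Finset β) (a : α → β → ℝ) (c : β → Prop)
    [DecidablePred c] : q4 P Y a ≤ 2 * (q4 P (Y.filter c) a + q4 P (Y.filter fun p => ¬ c p) a) := by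
  rw [q4_swap, q4_swap P (Y.filter c), q4_swap P (Y.filter _)]
  exact q4_split_row _ _ _ c

end four

/-! ### Vector functions -/

section vec

variable {κ : Type*} [Fintype κ]

/-- fourth moment of a block of a vector function -/
def g4 (X Y : Finset ℤ) (f : ℤ → ℤ → κ → ℝ) : ℝ :=
  ∑ y ∈ Y, ∑ y' ∈ Y, (∑ x ∈ X, f x y ⬝ᵥ f x y') ^ 2

theorem g4_eq (X Y : Finset ℤ) (f : ℤ → ℤ → κ → ℝ) :
    g4 X Y f = q4 (X ×ˢ (univ : Finset κ)) Y fun p y => f p.1 y p.2 := by
  unfold g4 q4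
  refine sum_congr rfl fun y _ => sum_congr rfl fun y' _ => ?_
  rw [sum_product]
  rfl

theorem g4_nonneg (X Y : Finset ℤ) (f : ℤ → ℤ → κ → ℝ) : 0 ≤ g4 X Y f :=
  sum_nonneg fun _ _ => sum_nonneg fun _ _ => sq_nonneg _

theorem g4_mono {X X' Y Y' : Finset ℤ} (hX : X ⊆ X') (hY : Y ⊆ Y') (f : ℤ → ℤ → κ → ℝ) :
    g4 X Y f ≤ g4 X' Y' f := by
  rw [g4_eq, g4_eq]
  exact q4_mono (product_subset_product_left hX) hY _

theorem g4_split (X Y : Finset ℤ) (f : ℤ → ℤ → κ → ℝ) (c d : ℤ → Prop) [DecidablePred c]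
    [DecidablePred d] :
    g4 X Y f ≤ 4 * (g4 (X.filter c) (Y.filter d) f +
      g4 (X.filter c) (Y.filter fun y => ¬ d y) f +
      (g4 (X.filter fun x => ¬ c x) (Y.filter d) f +
      g4 (X.filter fun x => ¬ c x) (Y.filter fun y => ¬ d y) f)) := by
  have h1 : g4 X Y f ≤ 2 * (g4 (X.filter c) Y f + g4 (X.filter fun x => ¬ c x) Y f) := by
    unfold g4
    rw [← sum_add_distrib, mul_sum]
    refine sum_le_sum fun y _ => ?_
    rw [← sum_add_distrib, mul_sum]
    refine sum_le_sum fun y' _ => ?_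
    rw [← sum_filter_add_sum_filter_not X c]
    nlinarith [sq_nonneg ((∑ x ∈ X.filter c, f x y ⬝ᵥ f x y') -
      ∑ x ∈ X.filter (fun x => ¬ c x), f x y ⬝ᵥ f x y')]
  have h2 : ∀ X' : Finset ℤ, g4 X' Y f ≤
      2 * (g4 X' (Y.filter d) f + g4 X' (Y.filter fun y => ¬ d y) f) := by
    intro X'
    rw [g4_eq, g4_eq, g4_eq]
    exact q4_split_col _ _ _ d
  have h3 := h2 (X.filter c)
  have h4 := h2 (X.filter fun x => ¬ c x)
  linarith

theorem g4_congr {X Y : Finset ℤ} {f g : ℤ → ℤ → κ → ℝ}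
    (h : ∀ x ∈ X, ∀ y ∈ Y, f x y = g x y) : g4 X Y f = g4 X Y g := by
  unfold g4
  refine sum_congr rfl fun y hy => sum_congr rfl fun y' hy' => ?_
  rw [sum_congr rfl fun x hx => by rw [h x hx y hy, h x hx y' hy']]

theorem g4_zero (X Y : Finset ℤ) {f : ℤ → ℤ → κ → ℝ}
    (h : ∀ x ∈ X, ∀ y ∈ Y, f x y = 0) : g4 X Y f = 0 := by
  rw [g4_congr (g := fun _ _ => 0) h]
  unfold g4
  simp

/-- a translated block -/
theorem g4_map (X Y : Finset ℤ) (a b : ℤ) (f : ℤ → ℤ → κ → ℝ) :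
    g4 X Y (fun x y => f (x + a) (y + b)) =
      g4 (X.map (addRightEmbedding a)) (Y.map (addRightEmbedding b)) f := by
  unfold g4
  simp only [sum_map, addRightEmbedding_apply]

variable [DecidableEq κ]

theorem S2_g4 (k : ℕ) (f : ℤ → ℤ → κ → ℝ) (n m : ℤ) :
    S2 (QK f (fun _ _ _ => (1 : Matrix κ κ ℝ)) k k n m) =
      ((4 : ℝ) ^ k)⁻¹ ^ 2 * g4 (iv k n) (iv k m) f := by
  unfold H103.QK
  rw [H338.S2_QW fun x => by rw [inv_one, transpose_one]]
  simp only [H338.avg_iv', inv_one, one_mulVec]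
  have e4 : ((4 : ℝ) ^ k)⁻¹ = ((2 : ℝ) ^ k)⁻¹ * ((2 : ℝ) ^ k)⁻¹ := by
    rw [← mul_inv, ← mul_pow]
    norm_num
  unfold g4
  rw [mul_sum, mul_sum]
  refine sum_congr rfl fun y _ => ?_
  rw [mul_sum, mul_sum, mul_sum]
  refine sum_congr rfl fun y' _ => ?_
  rw [e4, sum_congr rfl fun x _ => dotProduct_comm (f x y) (f x y')]
  ring

/-! ### Cells of the translated grid -/

omit [Fintype κ] [DecidableEq κ] in
theorem ix_tr (k : ℕ) {n a x : ℤ} (hx : ix k x = n) :
    ix k (x + a) = n + ix k a ∨ ix k (x + a) = n + ix k a + 1 := by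
  have h1 := mem_Ico.1 (mem_iv.2 hx : x ∈ iv k n)
  have h2 := mem_Ico.1 (mem_iv.2 rfl : a ∈ iv k (ix k a))
  rcases lt_or_ge (x + a) (2 ^ k * (n + ix k a) + 2 ^ k) with h | h
  · left
    rw [← mem_iv]
    unfold iv
    rw [mem_Ico]
    constructor <;> nlinarith [h1.1, h2.1]
  · right
    rw [← mem_iv]
    unfold iv
    rw [mem_Ico]
    constructor <;> nlinarith [h1.2, h2.2]

variable {N k : ℕ} {R S a b : ℤ}

omit [DecidableEq κ] in
/-- one piece of a translated square -/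
theorem g4_piece (hk : k ≤ N) (f : ℤ → ℤ → κ → ℝ) {X Y : Finset ℤ} {p r : ℤ}
    (hX : ∀ x ∈ X, ix k (x + a) = p) (hY : ∀ y ∈ Y, ix k (y + b) = r) :
    g4 X Y (sft N R S a b f) ≤
      if p ∈ iv (N - k) R ∧ r ∈ iv (N - k) S then g4 (iv k p) (iv k r) f else 0 := by
  have e : ∀ x, ix N x = ix (N - k) (ix k x) := fun x => by
    rw [ix_ix, Nat.add_sub_cancel' hk]
  by_cases h : p ∈ iv (N - k) R ∧ r ∈ iv (N - k) S
  · rw [if_pos h]
    have h1 := mem_iv.1 h.1
    have h2 := mem_iv.1 h.2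
    rw [g4_congr (g := fun x y => f (x + a) (y + b)) fun x hx y hy => ?_, g4_map]
    · refine g4_mono (fun x hx => ?_) (fun y hy => ?_) f
      · obtain ⟨x', hx', rfl⟩ := mem_map.1 hx
        exact mem_iv.2 (hX x' hx')
      · obtain ⟨y', hy', rfl⟩ := mem_map.1 hy
        exact mem_iv.2 (hY y' hy')
    · unfold H747.sft
      rw [if_pos ⟨by rw [e, hX x hx, h1], by rw [e, hY y hy, h2]⟩]
  · rw [if_neg h, g4_zero]
    intro x hx y hy
    unfold H747.sft
    rw [if_neg]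
    rintro ⟨h1, h2⟩
    exact h ⟨by rw [mem_iv, ← hX x hx, ← e, h1], by rw [mem_iv, ← hY y hy, ← e, h2]⟩

/-- the four standard squares under a translated square -/
def four (N k : ℕ) (R S a b : ℤ) (F : ℤ → ℤ → ℝ) (n m : ℤ) : ℝ :=
  ∑ u ∈ range 2, ∑ v ∈ range 2,
    if n + ix k a + (u : ℤ) ∈ iv (N - k) R ∧ m + ix k b + (v : ℤ) ∈ iv (N - k) S then
      F (n + ix k a + u) (m + ix k b + v) else 0

omit [DecidableEq κ] in
theorem g4_sft (hk : k ≤ N) (f : ℤ → ℤ → κ → ℝ) (n m : ℤ) :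
    g4 (iv k n) (iv k m) (sft N R S a b f) ≤
      4 * four N k R S a b (fun p r => g4 (iv k p) (iv k r) f) n m := by
  refine (g4_split _ _ _ (fun x => ix k (x + a) = n + ix k a)
    (fun y => ix k (y + b) = m + ix k b)).trans (mul_le_mul_of_nonneg_left ?_ (by norm_num))
  unfold four
  simp only [sum_range_succ, range_zero, sum_empty, zero_add, Nat.cast_zero, Nat.cast_one, add_zero]
  refine add_le_add (add_le_add (g4_piece hk f (fun x hx => ?_) (fun x hx => ?_))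
    (g4_piece hk f (fun x hx => ?_) (fun x hx => ?_)))
    (add_le_add (g4_piece hk f (fun x hx => ?_) (fun x hx => ?_))
    (g4_piece hk f (fun x hx => ?_) (fun x hx => ?_)))
  all_goals
    have h := mem_filter.1 hx
    first
      | exact h.2
      | exact (ix_tr k (mem_iv.1 h.1)).resolve_left h.2

/-- **The square trace on a translated square**, vector family. -/
theorem S2_sft (hk : k ≤ N) (f : ℤ → ℤ → κ → ℝ) (n m : ℤ) :
    S2 (QK (sft N R S a b f) (fun _ _ _ => (1 : Matrix κ κ ℝ)) k k n m) ≤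
      4 * four N k R S a b
        (fun p r => S2 (QK f (fun _ _ _ => (1 : Matrix κ κ ℝ)) k k p r)) n m := by
  rw [S2_g4]
  have h := mul_le_mul_of_nonneg_left (g4_sft hk (R := R) (S := S) (a := a) (b := b) f n m)
    (by positivity : (0 : ℝ) ≤ ((4 : ℝ) ^ k)⁻¹ ^ 2)
  refine h.trans (le_of_eq ?_)
  rw [mul_left_comm]
  congr 1
  unfold four
  simp only [mul_sum, mul_ite, mul_zero, S2_g4]

omit [Fintype κ] [DecidableEq κ] in
theorem un_sft (A : ℤ → ℤ → ℝ) : un (sft N R S a b A) = sft N R S a b (un A) := by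
  funext x y i
  unfold H103.un H747.sft
  split_ifs <;> rfl

omit [Fintype κ] [DecidableEq κ] in
/-- **The square trace on a translated square**, scalar family. -/
theorem S2_sftA (hk : k ≤ N) (A : ℤ → ℤ → ℝ) (n m : ℤ) :
    S2 (PA (sft N R S a b A) k k n m) ≤
      4 * four N k R S a b (fun p r => S2 (PA A k k p r)) n m := by
  simp only [PA_eq, un_sft]
  exact S2_sft hk (un A) n m

end vec

end

end Vale.Agent.P141.H32
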