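import Vale.Agent.P141.H32.Gap2
import Vale.Agent.P141.H32.ShGram

/-!
# P141, line (A): the gap family on a translated grid

`GapFam_sft` : the two families of `H576.GapFam` (weight `1`), cut to the root and translated, form
again such a family, for any root of the translated grid, when they agree pointwise off the affected
squares: caps times `16`, packing times `4`.
-/

namespace Vale.Agent.P141.H32

open Finset Matrix Vale.Agent.P141.PL
open Vale.Agent.P141.H103 (PA QK un PA_eq PA_congr QK_congr PA_zero QK_zero)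
open Vale.Agent.P141.H588G (S2 cnt)
open Vale.Agent.P141.H747 (sft)
open Vale.Agent.P141.H576 (GapFam)

noncomputable section

open scoped Classical

/-! ### Sums over a translated grid -/

theorem sum_tr_le (J J' : Finset ℤ) (c : ℤ) {g : ℤ → ℝ} (hg : ∀ p, 0 ≤ g p) :
    ∑ n ∈ J', (if n + c ∈ J then g (n + c) else 0) ≤ ∑ p ∈ J, g p := by
  rw [← sum_filter]
  have e : ∑ n ∈ J'.filter (fun n => n + c ∈ J), g (n + c) =
      ∑ p ∈ (J'.filter fun n => n + c ∈ J).map (addRightEmbedding c), g p := by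
    rw [sum_map]
    rfl
  rw [e]
  refine sum_le_sum_of_subset_of_nonneg (fun p hp => ?_) fun p _ _ => hg p
  obtain ⟨n, hn, rfl⟩ := mem_map.1 hp
  exact (mem_filter.1 hn).2

theorem sum_tr_le2 (I I' J J' : Finset ℤ) (c d : ℤ) {F : ℤ → ℤ → ℝ} (hF : ∀ p r, 0 ≤ F p r) :
    ∑ m ∈ I', ∑ n ∈ J', (if n + c ∈ J ∧ m + d ∈ I then F (n + c) (m + d) else 0) ≤
      ∑ r ∈ I, ∑ p ∈ J, F p r := by
  refine le_trans (sum_le_sum fun m _ => ?_)
    (sum_tr_le I I' d (g := fun r => ∑ p ∈ J, F p r) fun r => sum_nonneg fun p _ => hF p r)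
  by_cases h : m + d ∈ I
  · simp only [h, and_true, if_true]
    exact sum_tr_le J J' c (g := fun p => F p (m + d)) fun p => hF p _
  · simp only [h, and_false, if_false, sum_const_zero, le_refl]

variable {N k : ℕ} {R S T t₀ : ℤ}

theorem sum_four_le (a b R' S' : ℤ) {F : ℤ → ℤ → ℝ} (hF : ∀ p r, 0 ≤ F p r) :
    ∑ m ∈ iv (N - k) S', ∑ n ∈ iv (N - k) R', four N k R S a b F n m ≤
      4 * ∑ r ∈ iv (N - k) S, ∑ p ∈ iv (N - k) R, F p r := by
  unfold four
  simp only [add_assoc]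
  have e : ∑ m ∈ iv (N - k) S', ∑ n ∈ iv (N - k) R', ∑ u ∈ range 2, ∑ v ∈ range 2,
      (if n + (ix k a + (u : ℤ)) ∈ iv (N - k) R ∧ m + (ix k b + (v : ℤ)) ∈ iv (N - k) S then
        F (n + (ix k a + u)) (m + (ix k b + v)) else 0) =
      ∑ u ∈ range 2, ∑ v ∈ range 2, ∑ m ∈ iv (N - k) S', ∑ n ∈ iv (N - k) R',
      (if n + (ix k a + (u : ℤ)) ∈ iv (N - k) R ∧ m + (ix k b + (v : ℤ)) ∈ iv (N - k) S then
        F (n + (ix k a + u)) (m + (ix k b + v)) else 0) := by
    rw [sum_congr rfl fun m _ => sum_comm, sum_comm]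
    refine sum_congr rfl fun u _ => ?_
    rw [sum_congr rfl fun m _ => sum_comm, sum_comm]
  rw [e]
  refine (sum_le_sum fun (u : ℕ) _ => sum_le_sum fun (v : ℕ) _ =>
    sum_tr_le2 (iv (N - k) S) (iv (N - k) S') (iv (N - k) R) (iv (N - k) R') (ix k a + (u : ℤ))
      (ix k b + (v : ℤ)) hF).trans (le_of_eq ?_)
  rw [sum_const, sum_const, card_range, nsmul_eq_mul, nsmul_eq_mul]
  ring

/-- the affected squares of the translated grid -/
def qS (N k : ℕ) (R S a b : ℤ) (q : ℤ → ℤ → Prop) (n m : ℤ) : Prop :=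
  ∃ u ∈ range 2, ∃ v ∈ range 2, (n + ix k a + (u : ℤ) ∈ iv (N - k) R ∧
    m + ix k b + (v : ℤ) ∈ iv (N - k) S) ∧ q (n + ix k a + u) (m + ix k b + v)

theorem four_nonneg (a b : ℤ) {F : ℤ → ℤ → ℝ} (hF : ∀ p r, 0 ≤ F p r) (n m : ℤ) :
    0 ≤ four N k R S a b F n m := by
  unfold four
  refine sum_nonneg fun u _ => sum_nonneg fun v _ => ?_
  split_ifs
  · exact hF _ _
  · exact le_rfl

theorem ind_qS_le (a b : ℤ) (q : ℤ → ℤ → Prop) (n m : ℤ) :
    (if qS N k R S a b q n m then (1 : ℝ) else 0) ≤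
      four N k R S a b (fun p r => if q p r then 1 else 0) n m := by
  have hF : ∀ p r : ℤ, (0 : ℝ) ≤ if q p r then (1 : ℝ) else 0 := fun p r => by
    split_ifs <;> norm_num
  by_cases h : qS N k R S a b q n m
  · rw [if_pos h]
    obtain ⟨u, hu, v, hv, h1, h2⟩ := h
    unfold four
    have h0 : ∀ u v : ℕ, (0 : ℝ) ≤ if n + ix k a + (u : ℤ) ∈ iv (N - k) R ∧
        m + ix k b + (v : ℤ) ∈ iv (N - k) S then
        (fun p r => if q p r then (1 : ℝ) else 0) (n + ix k a + u) (m + ix k b + v) else 0 := by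
      intro u v
      split_ifs
      · exact hF _ _
      · exact le_rfl
    refine le_trans ?_ (single_le_sum (fun u _ => sum_nonneg fun v _ => h0 u v) hu)
    refine le_trans ?_ (single_le_sum (fun v _ => h0 u v) hv)
    rw [if_pos h1]
    simp only [if_pos h2, le_refl]
  · rw [if_neg h]
    exact four_nonneg a b hF n m

/-- **Packing on the translated grid.** -/
theorem cnt_qS (a b R' S' : ℤ) (q : ℤ → ℤ → Prop) :
    cnt N R' S' k (qS N k R S a b q) ≤ 4 * cnt N R S k q := by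
  unfold H588G.cnt
  rw [mul_left_comm]
  refine mul_le_mul_of_nonneg_left ?_ (by positivity)
  refine (sum_le_sum fun m _ => sum_le_sum fun n _ => ind_qS_le a b q n m).trans ?_
  exact sum_four_le a b R' S' fun p r => by split_ifs <;> norm_num

/-- **Caps on the translated grid.** -/
theorem cap_four {X : Finset ℤ} {s s' : ℤ → ℤ → ℤ → ℝ} {a b : ℤ} {g : ℝ} (hg : 0 ≤ g)
    (h : ∀ n ∈ iv (N - k) R, ∀ m ∈ iv (N - k) S, ∑ x ∈ X, s x n m ≤ g)
    (h' : ∀ x n m, s' x n m ≤ 4 * four N k R S a b (s x) n m) (n m : ℤ) :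
    ∑ x ∈ X, s' x n m ≤ 16 * g := by
  refine (sum_le_sum fun x _ => h' x n m).trans ?_
  rw [← mul_sum]
  have e : ∑ x ∈ X, four N k R S a b (s x) n m ≤ ∑ u ∈ range 2, ∑ v ∈ range 2, g := by
    unfold four
    rw [sum_comm]
    refine sum_le_sum fun u _ => ?_
    rw [sum_comm]
    refine sum_le_sum fun v _ => ?_
    by_cases h1 : n + ix k a + (u : ℤ) ∈ iv (N - k) R ∧ m + ix k b + (v : ℤ) ∈ iv (N - k) S
    · simp only [if_pos h1]
      exact h _ h1.1 _ h1.2
    · simp only [if_neg h1, sum_const_zero]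
      exact hg
  rw [sum_const, sum_const, card_range, nsmul_eq_mul, nsmul_eq_mul] at e
  push_cast at e
  linarith

/-! ### The family -/

/-- agreement of the translated, root cut functions off the affected squares -/
theorem sft_agree {E : Type*} [Zero E] (hk : k ≤ N) {F G : ℤ → ℤ → E} {q : ℤ → ℤ → Prop}
    (h : ∀ x y, ix N x = R → ix N y = S → ¬ q (ix k x) (ix k y) → F x y = G x y) {a b n m : ℤ}
    (hq : ¬ qS N k R S a b q n m) : ∀ x ∈ iv k n, ∀ y ∈ iv k m,
      sft N R S a b F x y = sft N R S a b G x y := by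
  intro x hx y hy
  unfold H747.sft
  by_cases h1 : ix N (x + a) = R ∧ ix N (y + b) = S
  · rw [if_pos h1, if_pos h1]
    refine h _ _ h1.1 h1.2 fun h2 => hq ?_
    have e : ∀ x, ix N x = ix (N - k) (ix k x) := fun x => by
      rw [ix_ix, Nat.add_sub_cancel' hk]
    obtain ⟨u, hu, hu'⟩ : ∃ u ∈ range 2, ix k (x + a) = n + ix k a + (u : ℤ) := by
      rcases ix_tr k (a := a) (mem_iv.1 hx) with h | h
      · exact ⟨0, by simp, by rw [h]; simp⟩
      · exact ⟨1, by simp, by rw [h]; simp⟩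
    obtain ⟨v, hv, hv'⟩ : ∃ v ∈ range 2, ix k (y + b) = m + ix k b + (v : ℤ) := by
      rcases ix_tr k (a := b) (mem_iv.1 hy) with h | h
      · exact ⟨0, by simp, by rw [h]; simp⟩
      · exact ⟨1, by simp, by rw [h]; simp⟩
    refine ⟨u, hu, v, hv, ⟨?_, ?_⟩, ?_⟩
    · rw [← hu', mem_iv, ← e, h1.1]
    · rw [← hv', mem_iv, ← e, h1.2]
    · rw [← hu', ← hv']
      exact h2
  · rw [if_neg h1, if_neg h1]

variable {κ : Type*} [Fintype κ] [DecidableEq κ] {A : ℤ → ℕ → ℤ → ℤ → ℝ}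
  {b : ℤ → ℕ → ℤ → ℤ → κ → ℝ} {qA qB : ℕ → ℤ → ℤ → ℤ → Prop} {gA gB cP : ℝ}

/-- **The gap family on a translated grid.** -/
theorem GapFam_sft (f : GapFam 1 N (fun _ _ _ => (0 : Matrix κ κ ℝ)) (fun _ _ _ => 1) R S T t₀
      A b qA qB gA gB cP)
    (hA : ∀ x₀ k, k < N → ∀ z y, ix N z = R → ix N y = S → ¬ qA k (ix k x₀) (ix k z) (ix k y) →
      A x₀ (k + 1) z y = A x₀ k z y)
    (hB : ∀ x₀ k, k < N → ∀ x y, ix N x = T → ix N y = S → ¬ qB k (ix k x₀) (ix k x) (ix k y) →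
      b x₀ (k + 1) x y = b x₀ k x y)
    (hA0 : ∀ x₀ z y, ix N z = R → ix N y = S → A x₀ 0 z y = 0)
    (hB0 : ∀ x₀ x y, ix N x = T → ix N y = S → b x₀ 0 x y = 0) (s₃ s₂ s₁ R' S' T' : ℤ) :
    GapFam 1 N (fun _ _ _ => (0 : Matrix κ κ ℝ)) (fun _ _ _ => 1) R' S' T' t₀
      (fun x₀ k => sft N R S s₃ s₂ (A x₀ k)) (fun x₀ k => sft N T S s₁ s₂ (b x₀ k))
      (fun k i => qS N k R S s₃ s₂ (qA k i)) (fun k i => qS N k T S s₁ s₂ (qB k i))
      (16 * gA) (16 * gB) (4 * cP) where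
  tr := f.tr
  agA := fun x₀ k hk n _ m _ hq => PA_congr (sft_agree hk.le (hA x₀ k hk) hq)
  agB := fun x₀ k hk n _ m _ hq => QK_congr _ (sft_agree hk.le (hB x₀ k hk) hq)
  zA := fun x₀ n m => by
    have e : sft N R S s₃ s₂ (A x₀ 0) = 0 := by
      funext z y
      unfold H747.sft
      split_ifs with h
      · exact hA0 x₀ _ _ h.1 h.2
      · rfl
    rw [e, PA_zero]
  zB := fun x₀ n m => by
    have e : sft N T S s₁ s₂ (b x₀ 0) = 0 := by
      funext z y
      unfold H747.sft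
      split_ifs with h
      · exact hB0 x₀ _ _ h.1 h.2
      · rfl
    rw [e, QK_zero]
  gA0 := by
    have := f.gA0
    positivity
  gB0 := by
    have := f.gB0
    positivity
  capA := fun k hk i hi n _ m _ => by
    have h0 := f.gA0
    rw [mul_assoc]
    exact cap_four (by positivity) (f.capA k hk i hi) (fun x n m => S2_sftA hk.le _ n m) n m
  capB := fun k hk i hi n _ m _ => by
    have h0 := f.gB0
    rw [mul_assoc]
    exact cap_four (by positivity) (f.capB k hk i hi) (fun x n m => S2_sft hk.le _ n m) n m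
  packA := fun x₀ hx => by
    refine (sum_le_sum fun k _ => cnt_qS s₃ s₂ R' S' (qA k (ix k x₀))).trans ?_
    rw [← mul_sum, mul_assoc]
    exact mul_le_mul_of_nonneg_left (f.packA x₀ hx) (by norm_num)
  packB := fun x₀ hx => by
    refine (sum_le_sum fun k _ => cnt_qS s₁ s₂ T' S' (qB k (ix k x₀))).trans ?_
    rw [← mul_sum, mul_assoc]
    exact mul_le_mul_of_nonneg_left (f.packB x₀ hx) (by norm_num)

end

end Vale.Agent.P141.H32
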